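import Vale.Agent.P067.Full.Main
import Vale.Agent.P067.Full.AlgBasic
import Vale.Agent.P067.Full.OppConesProof
import Vale.Agent.P067.Full.OppMix
import Vale.Agent.P067.Full.OppAcyclicProof
import Vale.Agent.P067.Full.GammaAction
import Vale.Agent.P067.Full.StabVanish
import Vale.Agent.P067.Full.Local.Main
import Vale.Agent.P067.Full.QuotientComplex

open Finset Vale.Agent.HDX Vale.Agent.P067.Full

/-- In every dimension there are bounded-degree coboundary expanders over `ZMod 2`. -/
theorem Vale.Agent.Results.P067.BoundedDegree.result :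
    ∀ d : ℕ, 1 ≤ d → ∃ D : ℕ, ∃ ε : ℝ, 0 < ε ∧ ∀ n0 : ℕ, ∃ F : Finset (Finset ℕ),
      (∀ τ ∈ F, τ.card = d + 1) ∧ n0 ≤ (vertices F).card ∧ IsConnectedComplex F ∧
        IsCoboundaryExpander d ε F ∧ ∀ v, (F.filter fun τ => v ∈ τ).card ≤ D :=
  Main.main_of_modules algTransfer oppCones oppMix oppAcyclic gammaAction stabVanish
    Local.localExpansion quotientComplex
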